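import Vale.Agent.P181.H467.NT.Defs
import Vale.Agent.P181.PL5.Br
import Vale.Agent.P181.SZ.Asm

set_option autoImplicit false

/-!
# P181, NT: the size type assembly with one more letter of size `a`

The proof of `PL5.asmP`, with `4 * a ≤ b` and zero rows allowed if there are few rows.
-/

namespace Vale.Agent.P181.H467.NT

open MvPolynomial
open Vale.Agent.P181.T4 (HW ex low ex_of_lt ex_anti low_anti)
open Vale.Agent.P181.H280 (plethMult hwSpace)
open Vale.Agent.P181.H463 (gt)
open Vale.Agent.P181.SZ
open Vale.Agent.P181.PL (PieS dn)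
open Vale.Agent.P181.PL5

lemma dn_one {m : ℕ} (lam : Fin (m + 1) → ℕ) : dn lam 1 = ∑ i, tl lam i := sum_tl lam

open scoped Classical in
/-- the marked types: one letter of size `a` in a horizontal strip -/
theorem markedP (hU : UpperS) (hP : PieS) {m a0 b0 w a b : ℕ} {lam nu : Fin (m + 1) → ℕ}
    (ha2 : 2 ≤ a) (ha0 : 1 ≤ a0) (ha : a0 < a) (hw : ∑ i, tl lam i = w)
    (hw' : w = ∑ i, tl nu i + a) (hbig : a + a0 * (a0 + 2) ≤ w) (hb : 3 * (b0 + 1) ≤ b)
    (hle : ∀ i : Fin m, tl nu i ≤ tl lam i)
    (hst : ∀ i : Fin m, ex (tl lam) ((i : ℕ) + 1) ≤ tl nu i) :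
    plethMult b0 a0 (m + 1) nu ≤
      ∑ k ∈ (PT w).filter (fun k => (∀ x ∈ k, x ≤ a) ∧ 3 * Multiset.card k ≤ b ∧ LBt a k),
        nn m (tl lam) k := by
  refine (hU b0 a0 m nu).trans ?_
  calc ∑ k ∈ (PT (∑ i, tl nu i)).filter (fun k => (∀ x ∈ k, x ≤ a0) ∧ ¬ LBt b0 k),
        nn m (tl nu) k
      ≤ ∑ k ∈ (PT (∑ i, tl nu i)).filter (fun k => (∀ x ∈ k, x ≤ a0) ∧ ¬ LBt b0 k),
        nn m (tl lam) (a ::ₘ k) := by
        apply Finset.sum_le_sum
        intro k hk
        rw [Finset.mem_filter] at hk
        refine hP m a (tl nu) (tl lam) k (by omega) (fun hmem => ?_) hle hst ?_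
        · have := hk.2.1 a hmem
          omega
        · rw [hw, hw']
    _ = ∑ k ∈ ((PT (∑ i, tl nu i)).filter (fun k => (∀ x ∈ k, x ≤ a0) ∧ ¬ LBt b0 k)).image
        (fun k => a ::ₘ k), nn m (tl lam) k := by
        rw [Finset.sum_image]
        intro k _ k' _ h
        have h1 : a ::ₘ k = a ::ₘ k' := h
        rwa [Multiset.cons_inj_right] at h1
    _ ≤ _ := by
        apply Finset.sum_le_sum_of_subset
        intro k' hk'
        rw [Finset.mem_image] at hk'
        obtain ⟨k, hk, rfl⟩ := hk'
        rw [Finset.mem_filter, mem_PT] at hk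
        obtain ⟨⟨h1, h2⟩, h3, h4⟩ := hk
        have h5 : Multiset.card k ≤ b0 := by
          by_contra h
          exact h4 (Or.inl (by omega))
        have h6 : k.sum ≤ a0 * Multiset.card k := by
          have := Multiset.sum_le_card_nsmul k a0 h3
          rwa [smul_eq_mul, mul_comm] at this
        have h7 : a0 + 2 ≤ Multiset.card k := by
          have h8 : a0 * (a0 + 2) ≤ a0 * Multiset.card k := by
            have h9 : k.sum + a = w := by rw [h1, hw']
            omega
          exact Nat.le_of_mul_le_mul_left h8 (by omega)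
        have h8 : Multiset.card (a ::ₘ k) = Multiset.card k + 1 := Multiset.card_cons _ _
        rw [Finset.mem_filter, mem_PT]
        refine ⟨⟨?_, ?_⟩, ?_, ?_, ?_⟩
        · rw [Multiset.sum_cons, h1, hw']
          ring
        · intro y hy
          rw [Multiset.mem_cons] at hy
          rcases hy with rfl | hy
          · exact ha2
          · exact h2 y hy
        · intro y hy
          rw [Multiset.mem_cons] at hy
          rcases hy with rfl | hy
          · exact le_rfl
          · have := h3 y hy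
            omega
        · rw [h8]
          omega
        · refine Or.inr ⟨a, Multiset.mem_cons_self _ _, ?_, ?_⟩
          · rw [h8]
            omega
          · intro y hy
            rw [Multiset.erase_cons_head] at hy
            rw [h8]
            have := h3 y hy
            omega

open scoped Classical in
/-- **The assembly.** -/
theorem asmQ (hU : UpperS) (hL : LowerS) (hSp : ∀ (m : ℕ) (mu : Fin m → ℕ), SplitS (nn m mu))
    (hF : FewS) (hP : PieS) (hFl : FlowS) : AsmQ := by
  classical
  intro a b n R X Z K w a0 b0 lam nu hlam hsum hpos hR1 hRn hw hZ1 hZ2 hK hKX hXZ hwX hKa hab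
    ha0 ha0a hbig hb0 hle hst hwnu hfinal
  obtain ⟨m, rfl⟩ : ∃ m, n = m + 1 := ⟨n - 1, by omega⟩
  have hw' : ∑ i, tl lam i = w := by rw [hw, dn_one]
  rw [dn_one] at hwnu
  obtain ⟨S, hS⟩ : ∃ S, S = (Z + 1) * X := ⟨_, rfl⟩
  obtain ⟨Y, hY⟩ : ∃ Y, Y = 2 * K * S := ⟨_, rfl⟩
  obtain ⟨J, hJ⟩ : ∃ J, J = 3 * Y + 3 := ⟨_, rfl⟩
  have hX1 : 1 ≤ X := by omega
  have hS1 : Z + 1 ≤ S := by
    rw [hS]
    exact Nat.le_mul_of_pos_right _ (by omega)
  have hKS : S ≤ K * S := Nat.le_mul_of_pos_left _ (by omega)
  have hKa' : 100 * (K * S) ≤ a := by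
    rw [hS]
    calc 100 * (K * ((Z + 1) * X)) = 100 * K * ((Z + 1) * X) := by ring
      _ ≤ a := hKa
  have hY' : Y = 2 * (K * S) := by rw [hY]; ring
  -- the sums
  set P := PT w with hPdef
  set N := nn m (tl lam) with hNdef
  set T := P.filter (fun k => (∀ x ∈ k, x ≤ a) ∧ 3 * Multiset.card k ≤ b ∧ LBt a k) with hT
  set A0 := P.filter (fun k => (∀ x ∈ k, x ≤ a) ∧ ¬ LBt a k) with hA0
  have hlow : ∑ k ∈ A0, N k + ∑ k ∈ T, N k ≤ plethMult b a (m + 1) lam := by
    have h1 := hL a b m lam hsum
    rw [hw'] at h1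
    refine le_trans ?_ h1
    rw [← Finset.sum_union]
    · apply Finset.sum_le_sum_of_subset
      intro k hk
      rw [Finset.mem_union, hA0, hT, Finset.mem_filter, Finset.mem_filter] at hk
      rw [Finset.mem_filter]
      rcases hk with ⟨h2, h3, h4⟩ | ⟨h2, h3, h4, _⟩
      · refine ⟨h2, h3, ?_⟩
        have : Multiset.card k ≤ a := by
          by_contra h
          exact h4 (Or.inl (by omega))
        omega
      · exact ⟨h2, h3, h4⟩
    · rw [Finset.disjoint_left]
      intro k hk1 hk2
      rw [hA0, Finset.mem_filter] at hk1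
      rw [hT, Finset.mem_filter] at hk2
      exact hk1.2.2 hk2.2.2.2
  -- the flow
  have hflow : 2 * ∑ k ∈ P.filter (SrcF a J S), N k ≤ ∑ k ∈ T, N k := by
    have h1 := hFl N (hSp m (tl lam)) a J S K X w hK (by omega) (by omega) (by
      rw [hS, mul_pow]
      exact Nat.mul_le_mul_right _ hZ2.le) hwX (by
      have : 6 * K * S = 6 * (K * S) := by ring
      omega)
    refine h1.trans (Finset.sum_le_sum_of_subset ?_)
    intro k hk
    rw [Finset.mem_filter] at hk
    obtain ⟨h2, h3, h4, ⟨x, hx, h5, h6⟩, h7⟩ := hk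
    rw [← hY] at h5 h6
    rw [hT, Finset.mem_filter]
    refine ⟨h2, h4, ?_, Or.inr ⟨x, hx, by omega, fun y hy => ?_⟩⟩
    · rw [mem_PT] at h2
      have h9 := Multiset.filter_add_not (· < S) k
      have h10 : Multiset.card k = Multiset.card (k.filter (· < S)) +
          Multiset.card (k.filter (fun y => ¬ y < S)) := by
        conv_lhs => rw [← h9]
        rw [Multiset.card_add]
      have h11 : Multiset.card (k.filter (fun y => ¬ y < S)) * S ≤ w := by
        have h12 := Multiset.card_nsmul_le_sum (s := k.filter (fun y => ¬ y < S)) (a := S)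
          (fun y hy => by
            rw [Multiset.mem_filter] at hy
            omega)
        rw [smul_eq_mul] at h12
        have h13 : (k.filter (fun y => ¬ y < S)).sum ≤ k.sum := by
          conv_rhs => rw [← h9]
          rw [Multiset.sum_add]
          omega
        omega
      have h14 : Multiset.card (k.filter (fun y => ¬ y < S)) ≤ Z + 1 := by
        by_contra h
        have h15 : (Z + 2) * S ≤ w := by
          refine le_trans (Nat.mul_le_mul_right _ ?_) h11
          omega
        have h16 : (Z + 1) * (Z + 1) ≤ (Z + 2) * S := Nat.mul_le_mul (by omega) hS1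
        have h17 : (Z + 1) ^ 2 = (Z + 1) * (Z + 1) := sq _
        omega
      omega
    · have := h6 y hy
      omega
  -- few letters
  have hfew : 2 * ∑ k ∈ P.filter (fun k => Multiset.card k < J), N k ≤ ∑ k ∈ T, N k := by
    have e1 : Z * X ^ 2 = Z * X * X := by ring
    have e2 : Z * X * (16 * K + 16) ≤ Z * X * X := Nat.mul_le_mul_left _ hKX
    have e3 : Z * X * (16 * K + 16) = 16 * (K * (Z * X)) + 16 * (Z * X) := by ring
    have e4 : K * S = K * (Z * X) + K * X := by rw [hS]; ring
    have hZ0 : 1 ≤ Z := by omega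
    have e5 : K * X ≤ K * (Z * X) := Nat.mul_le_mul_left _ (Nat.le_mul_of_pos_left _ hZ0)
    have e6 : 1 ≤ Z * X := Nat.mul_pos hZ0 hX1
    have hJX : J ≤ Z * X ^ 2 := by omega
    by_cases hnJ : m + 1 ≤ Z * X ^ 2
    · have hbig' := hfinal hnJ
      have hmark := markedP hU hP (lam := lam) (nu := nu) (a0 := a0) (b0 := b0) (w := w) (a := a)
        (b := b) (by omega) ha0 ha0a hw' hwnu hbig hb0 (fun i => hle i.succ (by simp))
        (fun i => by
          have h1 := hst i.succ (by simp)
          rw [Fin.val_succ] at h1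
          rw [ex_tl]
          exact h1)
      refine le_trans ?_ hmark
      refine le_trans (Nat.mul_le_mul_left 2 ?_) hbig'
      have hbr : gt (m + 1 - (R + 1)) (Z * X ^ 2) (low (R + 1) lam) ≤
          gt (m + 1 - R) (Z * X ^ 2 + 1) (low R nu) := by
        apply gt_branch
        · intro i hi hin
          have h1 := hst ⟨i, hin⟩ (by simp; omega)
          rw [← ex_val nu ⟨i, hin⟩] at h1
          exact h1
        · intro i hi hin
          have h1 := hle ⟨i, hin⟩ (by simp; omega)
          rw [← ex_val nu ⟨i, hin⟩, ← ex_val lam ⟨i, hin⟩] at h1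
          exact h1
      refine le_trans ?_ (Nat.mul_le_mul_left _ hbr)
      refine le_trans ?_ (few_bound (R := R + 1) (by omega) (by omega) hlam hw')
      refine le_trans ?_ (hF m w (Z * X ^ 2) (tl lam) hw')
      apply Finset.sum_le_sum_of_subset
      intro k hk
      rw [Finset.mem_filter] at hk ⊢
      exact ⟨hk.1, by omega⟩
    · have hpos : ∀ i, 0 < lam i := hpos.resolve_right hnJ
      have h1 := hF m w (J - 1) (tl lam) hw'
      rw [hw_zero (by omega) (tl lam) (tl_anti hlam) (fun i => hpos _)] at h1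
      have h2 : ∑ k ∈ P.filter (fun k => Multiset.card k < J), N k ≤
          ∑ k ∈ P.filter (fun k => Multiset.card k ≤ J - 1), N k := by
        apply Finset.sum_le_sum_of_subset
        intro k hk
        rw [Finset.mem_filter] at hk ⊢
        exact ⟨hk.1, by omega⟩
      have h3 : ∑ k ∈ P.filter (fun k => Multiset.card k < J), N k = 0 := by
        have := h2.trans h1
        omega
      rw [h3]
      simp
  -- the end
  have hup := hU a b m lam
  rw [hw'] at hup
  have hcover : ∑ k ∈ P.filter (fun k => (∀ x ∈ k, x ≤ b) ∧ ¬ LBt a k), N k ≤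
      ∑ k ∈ A0, N k + (∑ k ∈ P.filter (SrcF a J S), N k +
        ∑ k ∈ P.filter (fun k => Multiset.card k < J), N k) := by
    have h1 : P.filter (fun k => (∀ x ∈ k, x ≤ b) ∧ ¬ LBt a k) ⊆
        A0 ∪ (P.filter (SrcF a J S) ∪ P.filter (fun k => Multiset.card k < J)) := by
      intro k hk
      rw [Finset.mem_filter] at hk
      obtain ⟨h2, _, h3⟩ := hk
      rw [Finset.mem_union, Finset.mem_union, hA0, Finset.mem_filter, Finset.mem_filter,
        Finset.mem_filter]
      by_cases h4 : ∀ x ∈ k, x ≤ a
      · exact Or.inl ⟨h2, h4, h3⟩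
      · push Not at h4
        by_cases h5 : Multiset.card k < J
        · exact Or.inr (Or.inr ⟨h2, h5⟩)
        · refine Or.inr (Or.inl ⟨h2, by omega, h4, ?_⟩)
          refine (Multiset.card_le_card (Multiset.filter_le _ _)).trans ?_
          by_contra h
          exact h3 (Or.inl (by omega))
    refine (Finset.sum_le_sum_of_subset h1).trans ?_
    exact (sum_union_le' _ _ _).trans (Nat.add_le_add_left (sum_union_le' _ _ _) _)
  have hup' : plethMult a b (m + 1) lam ≤
      ∑ k ∈ P.filter (fun k => (∀ x ∈ k, x ≤ b) ∧ ¬ LBt a k), N k := by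
    convert hup
  omega

end Vale.Agent.P181.H467.NT
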