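import Vale.Agent.P181.H467.NT.Defs
import Vale.Agent.P181.PL10.Scan

set_option autoImplicit false

/-!
# P181, NT: the scan over `R` of the linear line
-/

namespace Vale.Agent.P181.H467.NT

open Vale.Agent.P181.T4 (ex low)
open Vale.Agent.P181.H280 (plethMult)
open Vale.Agent.P181.PL

/-- The scan, from the two known classes: few cells below the second row, short second row. -/
theorem scanG_core
    (hFew : ∀ (a b n : ℕ) (lam : Fin n → ℕ), dn lam 2 + 3 * a ≤ b →
      plethMult a b n lam ≤ plethMult b a n lam)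
    (hSec : ∀ (a b m : ℕ), a ≤ b → ∀ lam : Fin (m + 1) → ℕ,
      (∀ i : Fin (m + 1), i ≠ 0 → lam i ≤ a) →
      plethMult a b (m + 1) lam ≤ plethMult b a (m + 1) lam)
    (h3 : Heavy3G) (h4 : Heavy4G) (hL : LightG) (a b n X : ℕ) (lam : Fin n → ℕ)
    (h : Antitone lam ∧ ∑ i, lam i = a * b ∧ (∀ i, 0 < lam i) ∧ n ≤ a ∧ b ≤ a ^ 2 ∧
      5 * a ≤ b ∧ X ^ 20000 ≤ a ∧ 10 ^ 12 * (1 + Real.log a) ^ 7 ≤ X ∧
      dn lam 1 * X ^ 12000 ≤ a ^ 2) :
    plethMult a b n lam ≤ plethMult b a n lam := by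
  obtain ⟨hanti, hsum, hpos, hna, hb, h5, haX, hX, hw⟩ := h
  obtain ⟨hX1, hX12⟩ := PL10.X_ge hX
  have hX0 : 0 < X := by omega
  have ha1 : 1 ≤ a := le_trans (Nat.one_le_pow _ _ hX0) haX
  rcases le_or_gt (dn lam 2 + 3 * a) b with h2 | h2
  · exact hFew a b n lam h2
  rcases le_or_gt (ex lam 1) a with h1 | h1
  · cases n with
    | zero =>
      exfalso
      rw [Finset.univ_eq_empty, Finset.sum_empty] at hsum
      have h3 : 0 < a * b := Nat.mul_pos ha1 (by omega)
      omega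
    | succ m =>
      refine hSec a b m (by omega) lam (fun i hi => ?_)
      have h3 : 1 ≤ (i : ℕ) := by
        rcases Nat.eq_zero_or_pos (i : ℕ) with h0 | h0
        · exact absurd (Fin.ext h0) hi
        · exact h0
      have h4 := exanti hanti h3
      rw [exfin] at h4
      omega
  have hw1 : a < dn lam 1 := lt_of_lt_of_le h1 (ex_le_dn lam 1)
  have hpw : ∀ i j : ℕ, i ≤ j → X ^ i ≤ X ^ j := fun i j h => Nat.pow_le_pow_right hX0 h
  have hy : HyG a b n X lam := by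
    refine ⟨hanti, hsum, hpos, hna, hb, by omega, haX, hX, by omega, h1, ?_, ?_, ?_⟩
    · have e1 : 0 < dn lam 1 * X ^ 4 := Nat.mul_pos (by omega) (Nat.pow_pos hX0)
      calc dn lam 1 * X ^ 4 < 2 * (dn lam 1 * X ^ 4) := by omega
        _ ≤ X * (dn lam 1 * X ^ 4) := Nat.mul_le_mul_right _ (by omega)
        _ = dn lam 1 * X ^ 5 := by ring
        _ ≤ dn lam 1 * X ^ 12000 := Nat.mul_le_mul_left _ (hpw _ _ (by norm_num))
        _ ≤ a ^ 2 := hw
    · calc dn lam 1 * X ^ 6000 ≤ dn lam 1 * X ^ 12000 :=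
            Nat.mul_le_mul_left _ (hpw _ _ (by norm_num))
        _ ≤ a ^ 2 := hw
        _ ≤ dn lam 2 ^ 2 := Nat.pow_le_pow_left (by omega) 2
    · calc dn lam 1 * X ^ 200 ≤ dn lam 1 * X ^ 12000 :=
            Nat.mul_le_mul_left _ (hpw _ _ (by norm_num))
        _ ≤ a ^ 2 := hw
        _ ≤ b ^ 2 := Nat.pow_le_pow_left (by omega) 2
  obtain ⟨R, hR3, hRX, hs⟩ := PL10.exists_R lam hsum ha1 hb hX
  rcases le_or_gt (X ^ 2550 * dn lam R) (ex lam 2) with hl | hl
  · exact hL a b n X R lam hy hw hR3 hRX hl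
  have hRn : R < n := by
    by_contra h
    rw [dn_ge lam (by omega), mul_zero] at hl
    omega
  have hR : HyGR a b n X R lam := by
    refine ⟨hy, hR3, hRn, hRX, hs, ?_⟩
    have h3 := dn_le hanti 2 (R - 2)
    rw [show 2 + (R - 2) = R by omega] at h3
    calc dn lam 2 ≤ dn lam R + (R - 2) * ex lam 2 := h3
      _ ≤ 1 * dn lam R + X ^ 14 * (X ^ 2550 * dn lam R) := by
          rw [one_mul]
          exact Nat.add_le_add_left (Nat.mul_le_mul (by omega) hl.le) _
      _ = (1 + X ^ 2564) * dn lam R := by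
          rw [show (2564 : ℕ) = 14 + 2550 by norm_num, pow_add]
          ring
      _ ≤ X ^ 2600 * dn lam R := by
          apply Nat.mul_le_mul_right
          calc 1 + X ^ 2564 ≤ X ^ 2564 + X ^ 2564 :=
                Nat.add_le_add_right (Nat.one_le_pow _ _ hX0) _
            _ = 2 * X ^ 2564 := by ring
            _ ≤ X * X ^ 2564 := Nat.mul_le_mul_right _ (by omega)
            _ = X ^ (2564 + 1) := (pow_succ' _ _).symm
            _ ≤ X ^ 2600 := Nat.pow_le_pow_right hX0 (by norm_num)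
  rcases le_or_gt (X ^ 2 * dn lam 2) (dn lam 1) with hd | hd
  · exact h3 a b n X R lam hR hd
  · exact h4 a b n X R lam hR hd

/-- The scan over `R`. -/
theorem scanG_of (h3 : Heavy3G) (h4 : Heavy4G) (hL : LightG) (a b n X : ℕ) (lam : Fin n → ℕ)
    (h : Antitone lam ∧ ∑ i, lam i = a * b ∧ (∀ i, 0 < lam i) ∧ n ≤ a ∧ b ≤ a ^ 2 ∧
      5 * a ≤ b ∧ X ^ 20000 ≤ a ∧ 10 ^ 12 * (1 + Real.log a) ^ 7 ≤ X ∧
      dn lam 1 * X ^ 12000 ≤ a ^ 2) :
    plethMult a b n lam ≤ plethMult b a n lam :=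
  scanG_core PL10.few (fun a b _ hab lam h => H54.foulkes_secondRow a b hab lam h) h3 h4 hL
    a b n X lam h

end Vale.Agent.P181.H467.NT
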