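import Vale.Agent.P181.PL.Defs

set_option autoImplicit false

/-!
# P181, NT: the literals of the linear line

Foulkes' inequality for `b ≥ 5 a` and all partitions with `C (1 + log a) ^ c w ≤ a ^ 2`.
-/

namespace Vale.Agent.P181.H467.NT

open Vale.Agent.P181.T4 (HW ex low)
open Vale.Agent.P181.H280 (plethMult)
open Vale.Agent.P181.H463 (gt)
open Vale.Agent.P181.PL

/-- The assembly: as `AsmP`, with `4 * a ≤ b`; zero rows are allowed if there are few rows. -/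
def AsmQ : Prop := ∀ (a b n R X Z K w a0 b0 : ℕ) (lam nu : Fin n → ℕ), Antitone lam →
  ∑ i, lam i = a * b → ((∀ i, 0 < lam i) ∨ n ≤ Z * X ^ 2) → 1 ≤ R → R + 1 < n →
  w = dn lam 1 → Z ^ 2 ≤ w → w < (Z + 1) ^ 2 →
  1 ≤ K → 16 * K + 16 ≤ X → X ≤ Z → 4 * w ≤ X ^ K → 100 * K * ((Z + 1) * X) ≤ a →
  4 * a ≤ b → 1 ≤ a0 → a0 < a → a + a0 * (a0 + 2) ≤ w → 3 * (b0 + 1) ≤ b →
  (∀ i : Fin n, 1 ≤ (i : ℕ) → nu i ≤ lam i) →
  (∀ i : Fin n, 1 ≤ (i : ℕ) → ex lam ((i : ℕ) + 1) ≤ nu i) → w = dn nu 1 + a →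
  (n ≤ Z * X ^ 2 → 2 * ((w + 1) ^ ((R + 1) * (Z * X ^ 2)) *
    gt (n - R) (Z * X ^ 2 + 1) (low R nu)) ≤ plethMult b0 a0 n nu) →
  plethMult a b n lam ≤ plethMult b a n lam

/-- The hypotheses of the half `w X ^ 4 < a ^ 2`, for both lines. -/
def HyG (a b n X : ℕ) (lam : Fin n → ℕ) : Prop :=
  Antitone lam ∧ ∑ i, lam i = a * b ∧ (∀ i, 0 < lam i) ∧ n ≤ a ∧ b ≤ a ^ 2 ∧ 4 * a ≤ b ∧
    X ^ 20000 ≤ a ∧ 10 ^ 12 * (1 + Real.log a) ^ 7 ≤ X ∧ 2 * a ≤ dn lam 2 ∧ a < ex lam 1 ∧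
    dn lam 1 * X ^ 4 < a ^ 2 ∧ dn lam 1 * X ^ 6000 ≤ dn lam 2 ^ 2 ∧ dn lam 1 * X ^ 200 ≤ b ^ 2

/-- `HyG`, and the tail behind row `R` is spread and heavy. -/
def HyGR (a b n X R : ℕ) (lam : Fin n → ℕ) : Prop :=
  HyG a b n X lam ∧ 3 ≤ R ∧ R < n ∧ R ≤ X ^ 14 ∧ X ^ 13 * ex lam R ≤ dn lam R ∧
    dn lam 2 ≤ X ^ 2600 * dn lam R

/-- From `LBL` and `AsmQ`. -/
def Heavy3G : Prop := ∀ (a b n X R : ℕ) (lam : Fin n → ℕ), HyGR a b n X R lam →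
  X ^ 2 * dn lam 2 ≤ dn lam 1 → plethMult a b n lam ≤ plethMult b a n lam

/-- From `LBI` and `AsmQ`. -/
def Heavy4G : Prop := ∀ (a b n X R : ℕ) (lam : Fin n → ℕ), HyGR a b n X R lam →
  dn lam 1 < X ^ 2 * dn lam 2 → plethMult a b n lam ≤ plethMult b a n lam

/-- The tail behind row `R` is light. -/
def LightG : Prop := ∀ (a b n X R : ℕ) (lam : Fin n → ℕ), HyG a b n X lam →
  dn lam 1 * X ^ 12000 ≤ a ^ 2 → 3 ≤ R → R ≤ X ^ 14 → X ^ 2550 * dn lam R ≤ ex lam 2 →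
  plethMult a b n lam ≤ plethMult b a n lam

/-- The linear theorem. -/
def LinS : Prop := ∃ (C : ℝ) (c : ℕ), 0 < C ∧ ∀ a b : ℕ, 5 * a ≤ b →
  ∀ (n : ℕ) (lam : Fin n → ℕ), C * (1 + Real.log a) ^ c * (dn lam 1 : ℝ) ≤ (a : ℝ) ^ 2 →
  plethMult a b n lam ≤ plethMult b a n lam

lemma hyG_of {a b n X : ℕ} {lam : Fin n → ℕ} (h : Hy a b n X lam)
    (hw : dn lam 1 * X ^ 4 < a ^ 2) : HyG a b n X lam := by
  obtain ⟨h1, h2, h3, h4, h5, h6, h7, h8, h9, h10⟩ := h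
  have hX : 10 ^ 12 ≤ X := by
    have e1 : (1 : ℝ) ≤ 1 + Real.log a := by
      have := Real.log_natCast_nonneg a
      linarith
    have e2 : (1 : ℝ) ≤ (1 + Real.log a) ^ 7 := one_le_pow₀ e1
    have e3 : ((10 ^ 12 : ℕ) : ℝ) ≤ X := by
      push_cast
      nlinarith
    exact_mod_cast e3
  have hX1 : 1 ≤ X := by omega
  have p1 : X ≤ X ^ 6000 := Nat.le_self_pow (by norm_num) X
  have q1 : 100 * a ≤ b := by
    calc 100 * a ≤ X ^ 6000 * a := Nat.mul_le_mul_right _ (by omega)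
      _ = a * X ^ 6000 := mul_comm _ _
      _ ≤ b := h6
  have q2 : b ^ 2 ≤ 4 * dn lam 2 ^ 2 := by
    calc b ^ 2 ≤ (2 * dn lam 2) ^ 2 := Nat.pow_le_pow_left h9 2
      _ = 4 * dn lam 2 ^ 2 := by ring
  have q3 : a ^ 2 * X ^ 12000 ≤ b ^ 2 := by
    calc a ^ 2 * X ^ 12000 = (a * X ^ 6000) ^ 2 := by ring
      _ ≤ b ^ 2 := Nat.pow_le_pow_left h6 2
  refine ⟨h1, h2, h3, h4, h5, by omega, h7, h8, by omega, h10, hw, ?_, ?_⟩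
  · apply Nat.le_of_mul_le_mul_left _ (show 0 < 4 by norm_num)
    calc 4 * (dn lam 1 * X ^ 6000) ≤ X * (dn lam 1 * X ^ 6000) := by
          apply Nat.mul_le_mul_right
          omega
      _ = dn lam 1 * X ^ 4 * X ^ 5997 := by ring
      _ ≤ a ^ 2 * X ^ 5997 := Nat.mul_le_mul_right _ hw.le
      _ ≤ a ^ 2 * X ^ 12000 := by
          apply Nat.mul_le_mul_left
          exact Nat.pow_le_pow_right hX1 (by norm_num)
      _ ≤ b ^ 2 := q3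
      _ ≤ 4 * dn lam 2 ^ 2 := q2
  · calc dn lam 1 * X ^ 200 = dn lam 1 * X ^ 4 * X ^ 196 := by ring
      _ ≤ a ^ 2 * X ^ 196 := Nat.mul_le_mul_right _ hw.le
      _ ≤ a ^ 2 * X ^ 12000 := by
          apply Nat.mul_le_mul_left
          exact Nat.pow_le_pow_right hX1 (by norm_num)
      _ ≤ b ^ 2 := q3

theorem heavy3_of (h : Heavy3G) : Heavy3 := fun a b n X R lam ⟨h1, h2⟩ hw hd =>
  h a b n X R lam ⟨hyG_of h1 hw, h2⟩ hd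

theorem heavy4_of (h : Heavy4G) : Heavy4 := fun a b n X R lam ⟨h1, h2⟩ hw hd =>
  h a b n X R lam ⟨hyG_of h1 hw, h2⟩ hd

end Vale.Agent.P181.H467.NT
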