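import Vale.Agent.P181.H467.Pie
import Vale.Agent.P181.H467.NT.AsmQ
import Vale.Agent.P181.H467.NT.Heavy3G
import Vale.Agent.P181.H467.NT.Heavy4G
import Vale.Agent.P181.H467.NT.Light
import Vale.Agent.P181.H467.NT.Scan
import Vale.Agent.P181.PL10.Lin
import Vale.Agent.P181.PL2.LExT
import Vale.Agent.P181.PL3.All
import Vale.Agent.P181.PL4.Lbl
import Vale.Agent.P181.SZ.Final

set_option autoImplicit false

/-!
# P181, NT: the linear theorem

For `b ≥ 5 a`, Foulkes' inequality holds for all partitions with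
`C (1 + log a) ^ c (λ_2 + λ_3 + ⋯) ≤ a ^ 2`.
-/

namespace Vale.Agent.P181.H467.NT

open Vale.Agent.P181.SZ

/-- The assembly, without hypotheses. -/
theorem asmQ_s : AsmQ :=
  asmQ R1b.upperS SZR2.lowerS (SZR3.splitS SZT0.transS) SZR4.few_s pieS SZC1.flowS

/-- **The linear theorem.** -/
theorem linS : LinS :=
  PL10.lin_of fun a b n X lam h =>
    scanG_of (heavy3G_of PL4.lbl asmQ_s) (heavy4G_of (PL3.lbi PL2.lEx) asmQ_s)
      (lightG_of asmQ_s SZN3.lbcF SZN3.lbrF) a b n X lam h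

end Vale.Agent.P181.H467.NT
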