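import Vale.Agent.P181.PL508.Common
import Vale.Agent.P181.H467.NT.Defs

set_option autoImplicit false

/-!
# P181, NT: the common numbers
-/

namespace Vale.Agent.P181.H467.NT

open Vale.Agent.P181.T4 (ex low)
open Vale.Agent.P181.H280 (plethMult)
open Vale.Agent.P181.H463 (gt)
open Vale.Agent.P181.PL Vale.Agent.P181.PL508

/-- the numbers `Z`, `K` -/
lemma commonG {a b n X : ℕ} {lam : Fin n → ℕ} (h : HyG a b n X lam) :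
    1 ≤ a ∧ 10 ^ 12 ≤ X ∧ 10 ^ 12 * Real.log a ≤ X ∧ 10 ^ 12 * (1 + Real.log a) ^ 6 ≤ X ∧
    dn lam 1 + 1 ≤ a ^ 2 ∧ dn lam 2 ≤ dn lam 1 ∧ 3 * a ≤ dn lam 1 ∧
    ∃ Z K, Z ^ 2 ≤ dn lam 1 ∧ dn lam 1 < (Z + 1) ^ 2 ∧ X ^ 9999 ≤ Z ∧ Z * X ^ 2 < a ∧
      Z * X ^ 3000 ≤ dn lam 2 ∧ Z * X ^ 100 ≤ b ∧ Z ^ 2 * X ^ 6000 ≤ dn lam 2 ^ 2 ∧
      1 ≤ K ∧ 16 * K + 16 ≤ X ∧ 1000 * K ≤ X ∧ 4 * dn lam 1 ≤ X ^ K ∧
      100 * K * ((Z + 1) * X) ≤ a := by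
  obtain ⟨_, hsum, _, hna, hb2, hab, hXa, hlog, hD2, h1, hw, hwD, hwb⟩ := h
  have ha : 1 ≤ a := by
    by_contra hcon
    have : a = 0 := by omega
    subst this
    rw [zero_mul] at hsum
    have h2 := ex_le_dn lam 1
    have h3 := dn_anti lam (Nat.zero_le 1)
    rw [dn_zero, hsum] at h3
    omega
  obtain ⟨hX, hl1, hl6, K, hK1, hK2, hK3⟩ := X_facts ha hlog
  have hdn1 : dn lam 1 = ex lam 1 + dn lam 2 := dn_succ lam 1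
  obtain ⟨w, hwdef⟩ : ∃ w, w = dn lam 1 := ⟨_, rfl⟩
  obtain ⟨D, hDdef⟩ : ∃ D, D = dn lam 2 := ⟨_, rfl⟩
  rw [← hDdef] at hD2 hwD hdn1 ⊢
  rw [← hwdef] at hw hwD hwb hdn1 ⊢
  have hX1 : 1 ≤ X := le_trans (by norm_num) hX
  have hX4 : 1 ≤ X ^ 4 := Nat.one_le_pow _ _ hX1
  have hwa : w + 1 ≤ a ^ 2 := by
    have : w * 1 ≤ w * X ^ 4 := Nat.mul_le_mul_left _ hX4
    omega
  obtain ⟨Z, hZ⟩ : ∃ Z, Z = Nat.sqrt w := ⟨_, rfl⟩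
  have hZ1 : Z ^ 2 ≤ w := by
    rw [hZ]
    exact Nat.sqrt_le' w
  have hZ2 : w < (Z + 1) ^ 2 := by
    rw [hZ]
    exact Nat.lt_succ_sqrt' w
  have hZa : Z * X ^ 2 < a := by
    have h2 : (Z * X ^ 2) ^ 2 < a ^ 2 := by
      calc (Z * X ^ 2) ^ 2 = Z ^ 2 * X ^ 4 := by ring
        _ ≤ w * X ^ 4 := Nat.mul_le_mul_right _ hZ1
        _ < a ^ 2 := hw
    exact lt_of_pow_lt_pow_left₀ 2 (Nat.zero_le _) h2
  have hZD2 : Z ^ 2 * X ^ 6000 ≤ D ^ 2 := (Nat.mul_le_mul_right _ hZ1).trans hwD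
  refine ⟨ha, hX, hl1, hl6, hwa, by omega, by omega, Z, K, hZ1, hZ2, ?_, hZa, ?_, ?_, hZD2, hK1,
    by omega, hK2, ?_, ?_⟩
  · by_contra hcon
    have h2 : Z + 1 ≤ X ^ 9999 := by omega
    have h3 : (Z + 1) ^ 2 ≤ (X ^ 9999) ^ 2 := Nat.pow_le_pow_left h2 2
    have h5 : (X ^ 9999) ^ 2 ≤ X ^ 20000 := by
      rw [← pow_mul]
      exact Nat.pow_le_pow_right hX1 (by norm_num)
    omega
  · have h2 : (Z * X ^ 3000) ^ 2 ≤ D ^ 2 := by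
      calc (Z * X ^ 3000) ^ 2 = Z ^ 2 * X ^ 6000 := by ring
        _ ≤ D ^ 2 := hZD2
    exact (Nat.pow_le_pow_iff_left (by norm_num)).1 h2
  · have h2 : (Z * X ^ 100) ^ 2 ≤ b ^ 2 := by
      calc (Z * X ^ 100) ^ 2 = Z ^ 2 * X ^ 200 := by ring
        _ ≤ w * X ^ 200 := Nat.mul_le_mul_right _ hZ1
        _ ≤ b ^ 2 := hwb
    exact (Nat.pow_le_pow_iff_left (by norm_num)).1 h2
  · have h2 : a ^ 2 ≤ a ^ 3 := Nat.pow_le_pow_right ha (by norm_num)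
    have h3 : 2 ^ K ≤ X ^ K := Nat.pow_le_pow_left (by omega) K
    omega
  · have h4 : X ^ 2 ≤ a := (Nat.pow_le_pow_right hX1 (by norm_num)).trans hXa
    have h5 : 10 * (100 * K * ((Z + 1) * X)) ≤ X * ((Z + 1) * X) := by
      calc 10 * (100 * K * ((Z + 1) * X)) = 1000 * K * ((Z + 1) * X) := by ring
        _ ≤ X * ((Z + 1) * X) := Nat.mul_le_mul_right _ hK2
    have h6 : X * ((Z + 1) * X) = Z * X ^ 2 + X ^ 2 := by ring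
    omega

end Vale.Agent.P181.H467.NT
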